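import Vale.Agent.P237.Quant.TailData.N29.tailN29N1Part0
import Vale.Agent.P237.Quant.TailData.N29.tailN29N1Part1
import Vale.Agent.P237.Quant.TailData.N29.tailN29N1Part2
import Vale.Agent.P237.Quant.TailData.N29.tailN29N1Part3

/-!
Tail calibration tailN29N1 in dimension 29. The check. Generated data, checked by the kernel.
-/

set_option maxRecDepth 100000
set_option linter.all false

namespace Vale.Agent.P237.Quant.TailData

open TailCert


/-- The calibration. -/
noncomputable def tailN29N1 : Cfg :=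
  tailN29N1Base.withIvals (List.flatten [tailN29N1L0, tailN29N1L1, tailN29N1L2, tailN29N1L3, tailN29N1L4, tailN29N1L5, tailN29N1L6, tailN29N1L7, tailN29N1L8, tailN29N1L9, tailN29N1L10, tailN29N1L11, tailN29N1L12, tailN29N1L13, tailN29N1L14])

theorem tailN29N1_parts : [tailN29N1L0, tailN29N1L1, tailN29N1L2, tailN29N1L3, tailN29N1L4, tailN29N1L5, tailN29N1L6, tailN29N1L7, tailN29N1L8, tailN29N1L9, tailN29N1L10, tailN29N1L11, tailN29N1L12, tailN29N1L13, tailN29N1L14].Forall fun l => tailN29N1Base.partUsed tailN29N1Used l = true := by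
  simp only [List.forall_cons, List.Forall]
  exact ⟨tailN29N1L0_ok, tailN29N1L1_ok, tailN29N1L2_ok, tailN29N1L3_ok, tailN29N1L4_ok, tailN29N1L5_ok, tailN29N1L6_ok, tailN29N1L7_ok, tailN29N1L8_ok, tailN29N1L9_ok, tailN29N1L10_ok, tailN29N1L11_ok, tailN29N1L12_ok, tailN29N1L13_ok, tailN29N1L14_ok⟩

theorem tailN29N1_check : tailN29N1.check = true :=
  Cfg.check_of_parts (by decide +kernel) tailN29N1_parts

end Vale.Agent.P237.Quant.TailData
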