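import Vale.Agent.P237.Quant.TailData.N29.tailN29P0Base

/-!
Tail calibration tailN29P0 in dimension 29. A part of the intervals. Generated data, checked by the kernel.
-/

set_option maxRecDepth 100000
set_option linter.all false

namespace Vale.Agent.P237.Quant.TailData

open TailCert


/-- An interval. -/
noncomputable def tailN29P0I87 : Ival :=
  Decode.ival 0x10000047ae1c100004000011eb8637deecdf7bb0d0985a6fcb80cdb2c5c2fe04294abff1aebb91f89963010004cb5175c0ef713eb0d8f3bb203788b000000000000000076db6db6db6db6c8000000000000000000000000000000000000020000000000100165007a71fb0b55c930036d800002363ba080002000008d0e39bef762a2d30000000000000000003552167257503ed44df5aea00a099ca935800380e1452df11b3c1b6a92e9ab9de2c780004ea3b280efa16c00e7418eb49fde2d4025d3a77cb2dac37ac32e9ff6261aad784c00000400000000004505b0426efd4704d5ce400e6a0000088b618200008000021fb3c2a2d3027100000000000000000025e76e9afa1c1b24b33329661504d499a027dab2cef47edeb74cda04eeadaddc1003bbd05641a012981d4fe995064bd0d81e566124224d79f30de0f3a2248e1d1d000001000000000010416585768ddc9802d2a0037680000210f58080002000008423802710004c9d0000000000000000061856b251d1c4e1059b71cd4529e001c1b052813f9cdbec7d650f65524c08b0008b709a8e451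aa98150b6f63f476b040110496366998156c058f6f3690b39c280000080000000000800b2f373cce22b34257801b6f9c1817f7f045fe4000000000000000100000410000400001000000264e80000000000000000000000000000000000000000000000000000000000000000000000000000000b51d9afe422d47c0000000000000000000000000000000000000000000000000a00000018001d82dc58e11800f57421e007554e2703baf6000000000000000080000208000200000800000000000155840000200000004000000b022541a0254cce15000c1400000f6e900400010000040000002ab08270fe0000000000000000000000000000000000000000000000006a3affcf71571cb7d8d06ceb7bed794c000000000000000000000000000000000000000000000000000000000000000000000000000000004005bbfb9d6cc9b8687cc00db780700000f9004000000020000000500003c28c0000000000000001ffeaff238000bd8c10012d5293f891a789320001618000350808000000100000005e1462e1400000000000000007ffabfc8e0002f630400441f6a00927610d9700056a000100002000000040000000170a3fffe000111775fcd9b11ee0a0000dac029c4007f26407746a528800029af7b80c03b38800f9c2807c002a00d0418b66c0a7a9cc72607dfffffffff9672610207fffff1d48bace1108100000080d3335c5c107fffffaed9fd595d840c0435e3be826419c1fe021ec16f05898ce0fe00c0000097ff581100cf7524ab51c6dc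

/-- A part of the intervals. -/
noncomputable def tailN29P0L12 : List Ival :=
  [tailN29P0I87]

theorem tailN29P0L12_ok : tailN29P0Base.partUsed tailN29P0Used tailN29P0L12 = true := by
  decide +kernel

end Vale.Agent.P237.Quant.TailData
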