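import Vale.Agent.P237.Quant.TailData.N29.tailN29P0Part0
import Vale.Agent.P237.Quant.TailData.N29.tailN29P0Part1
import Vale.Agent.P237.Quant.TailData.N29.tailN29P0Part2
import Vale.Agent.P237.Quant.TailData.N29.tailN29P0Part3

/-!
Tail calibration tailN29P0 in dimension 29. The check. Generated data, checked by the kernel.
-/

set_option maxRecDepth 100000
set_option linter.all false

namespace Vale.Agent.P237.Quant.TailData

open TailCert


/-- The calibration. -/
noncomputable def tailN29P0 : Cfg :=
  tailN29P0Base.withIvals (List.flatten [tailN29P0L0, tailN29P0L1, tailN29P0L2, tailN29P0L3, tailN29P0L4, tailN29P0L5, tailN29P0L6, tailN29P0L7, tailN29P0L8, tailN29P0L9, tailN29P0L10, tailN29P0L11, tailN29P0L12])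

theorem tailN29P0_parts : [tailN29P0L0, tailN29P0L1, tailN29P0L2, tailN29P0L3, tailN29P0L4, tailN29P0L5, tailN29P0L6, tailN29P0L7, tailN29P0L8, tailN29P0L9, tailN29P0L10, tailN29P0L11, tailN29P0L12].Forall fun l => tailN29P0Base.partUsed tailN29P0Used l = true := by
  simp only [List.forall_cons, List.Forall]
  exact ⟨tailN29P0L0_ok, tailN29P0L1_ok, tailN29P0L2_ok, tailN29P0L3_ok, tailN29P0L4_ok, tailN29P0L5_ok, tailN29P0L6_ok, tailN29P0L7_ok, tailN29P0L8_ok, tailN29P0L9_ok, tailN29P0L10_ok, tailN29P0L11_ok, tailN29P0L12_ok⟩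

theorem tailN29P0_check : tailN29P0.check = true :=
  Cfg.check_of_parts (by decide +kernel) tailN29P0_parts

end Vale.Agent.P237.Quant.TailData
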