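import Vale.Agent.P237.Quant.TailPartsLink
import Vale.Agent.P237.Quant.RowTables
import Vale.Agent.P237.Quant.EnvelopeTableData.N26
import Vale.Agent.P237.Quant.TailData.N29.tailN29P0
import Vale.Agent.P237.Quant.TailData.N29.tailN29P1
import Vale.Agent.P237.Quant.TailData.N29.tailN29P2
import Vale.Agent.P237.Quant.TailData.N29.tailN29P3
import Vale.Agent.P237.Quant.TailData.N29.tailN29N0
import Vale.Agent.P237.Quant.TailData.N29.tailN29N1

/-!
The tail inequalities of the rows of both sides in dimension 29. Generated.
-/

namespace Vale.Agent.P237.Quant

open TailCert TailData

/-- The tail inequalities of `negRow14` in dimension 29. -/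
theorem negRow14_tailAt29 : negRow14.TailAt 28 := by
  intro P hP
  simp only [negRow14, binsOf, List.mem_cons, List.not_mem_nil, or_false] at hP
  rcases hP with rfl | rfl
  · exact tailBin_negParts tailN29N0_check tailN29N0_parts envTable29_check (by decide +kernel)
  · exact tailBin_negParts tailN29N1_check tailN29N1_parts envTable29_check (by decide +kernel)

/-- The tail inequalities of `posRow25` in dimension 29. -/
theorem posRow25_tailAt29 : posRow25.TailAt 28 := by
  intro P hP
  simp only [posRow25, posRowA, posCuts14, posCuts16, binsOf, List.mem_cons, List.not_mem_nil, or_false] at hP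
  rcases hP with rfl | rfl | rfl | rfl
  · exact tailBin_posParts tailN29P0_check tailN29P0_parts envTable29_check (by decide +kernel)
  · exact tailBin_posParts tailN29P1_check tailN29P1_parts envTable29_check (by decide +kernel)
  · exact tailBin_posParts tailN29P2_check tailN29P2_parts envTable29_check (by decide +kernel)
  · exact tailBin_posParts tailN29P3_check tailN29P3_parts envTable29_check (by decide +kernel)

end Vale.Agent.P237.Quant
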